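import Vale.Agent.N272X.Bridge

/-!
# P272: a volume Schwarz lemma for the Kobayashi indicatrix

On a compact connected hyperbolic Kähler manifold the volume form of every
Hermitian metric with `Ric h ≥ -h` is bounded below at each point `x` by every negatively curved
volume form on the indicatrix of the Kobayashi-Royden metric in `T_x X`; this gives an explicit
lower bound of `c₁(K_X)^n`.
-/

open scoped Manifold ContDiff ComplexOrder

namespace Vale.Agent.Results.P272.A0Indicatrix

open Vale.Agent.N272X.S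

theorem result (n : ℕ) (X : Type) [TopologicalSpace X] [T2Space X] [CompactSpace X]
    [ConnectedSpace X] [ChartedSpace (Cn n) X] [IsManifold 𝓘(ℂ, Cn n) ω X]
    (hX : Brody n X) (w : X → Mat n) (hw : IsKahler w) :
    (∃ c : ℝ, 0 < c ∧ ∀ x v, c * form (w x) v ≤ royden x v ^ 2) ∧
    (∀ h : X → Mat n, IsHermitian h → RicGe h → ∀ x : X,
      (∀ u : Cn n → ℝ, (∀ v, royden x v < 1 → ContDiffAt ℝ 2 u v ∧ (levi u v).PosDef ∧
        Real.exp (u v) ≤ (levi u v).det.re) → Real.exp (u 0) ≤ (h x).det.re) ∧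
      ∀ Q : Mat n, Q.PosDef → (∀ v, form Q v ≤ royden x v ^ 2) →
        (n + 1) ^ n * Q.det.re ≤ (h x).det.re) ∧
    ∀ q : X → Mat n, IsHermitian q → (∀ x v, form (q x) v ≤ royden x v ^ 2) →
      ∃ I J : ℝ, IsVolume (-ric w) I ∧ IsVolume (loc q) J ∧ 0 < J ∧ (n + 1) ^ n * J ≤ I := by
  have hw' := N272X.kahler_of hw
  exact ⟨N272X.royden_lower hX hw.1, fun h hh hR x =>
    ⟨fun u hu => N272X.volume hX hw' hh hR x hu,
      fun Q hQ hq => N272X.ellipsoid hX hw' hh hR x hQ hq⟩,
    fun q hq hk => N272X.canonical_volume hX hw hq hk⟩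

end Vale.Agent.Results.P272.A0Indicatrix
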